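import Vale.Agent.P018.H867.Defs

/-! # P018, Q018: the objects in the statement of the hand-in `A00AllRanges`
(`rho`, `PowerFree`, `countPF`, `density` are in `P018.Base`; `topExp`, `rhoS`, `countS`,
`densityS` are in `P018.H867.Defs`). -/

namespace Vale.Agent.Q018

open Polynomial Filter Asymptotics Vale.Agent.P018

/-- the local condition at the exponent `k`: `ρ_f(p^k) < p^k` for every prime `p`. -/
def Loc (f : ℤ[X]) (k : ℕ) : Prop := ∀ p : ℕ, p.Prime → rho f (p ^ k) < p ^ k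

/-- the predicted asymptotic for the `k`-power-free values of `f`: the product `c_{f,k}` converges,
it is positive, `S_{f,k}(X) = c_{f,k} X + o(X)`, and the error term saves a power of `X`. -/
def Asym (f : ℤ[X]) (k : ℕ) : Prop :=
  Multipliable (fun p : Nat.Primes => 1 - (rho f ((p : ℕ) ^ k) : ℝ) / ((p : ℕ) : ℝ) ^ k) ∧
  0 < density f k ∧
  (fun X : ℕ => (countPF f k X : ℝ) - density f k * X) =o[atTop] (fun X : ℕ => (X : ℝ)) ∧
  ∃ δ C : ℝ, 0 < δ ∧ ∀ X : ℕ, 1 ≤ X →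
    |(countPF f k X : ℝ) - density f k * X| ≤ C * (X : ℝ) ^ (1 - δ)

/-- the pairs (degree, exponent) that are treated. -/
def Rng (d k : ℕ) : Prop :=
  d ≤ 2 * k ∨ d + 3 ≤ 3 * k ∨ 2 * d + 12 ≤ 7 * k ∨
    ((d, k) ≠ (19, 7) ∧ (d : ℝ) / 4 + Real.log d ^ 2 / 16 + Real.log d / 3 + 0.651 ≤ k)

/-- `f ≠ 0`, and whenever `g ^ e` divides `f` over `ℚ`, `g` irreducible, `e ≥ 1`, then `e < k` and
`(deg g, ⌈k / e⌉)` is in the range; multiple factors are allowed. -/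
def GoodQ (f : ℤ[X]) (k : ℕ) : Prop :=
  f ≠ 0 ∧ ∀ (g : ℚ[X]) (e : ℕ), Irreducible g → 1 ≤ e → g ^ e ∣ f.map (Int.castRingHom ℚ) →
    e < k ∧ Rng g.natDegree ⌈(k : ℚ) / e⌉₊

end Vale.Agent.Q018
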