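import Vale.Agent.Q018.Defs

/-! # P018, Q018: the polynomial `X ^ 4 + 2`. -/

namespace Vale.Agent.Q018

open Polynomial Filter Asymptotics Vale.Agent.P018

theorem natDegree_four : (X ^ 4 + 2 : ℤ[X]).natDegree = 4 := by
  have h : (X ^ 4 + 2 : ℤ[X]) = X ^ 4 + C 2 := rfl
  rw [h, natDegree_X_pow_add_C]

theorem monic_four : (X ^ 4 + 2 : ℤ[X]).Monic := by
  have h : (X ^ 4 + 2 : ℤ[X]) = X ^ 4 + C 2 := rfl
  rw [h]
  exact monic_X_pow_add_C _ (by norm_num)

theorem irr_four_int : Irreducible (X ^ 4 + 2 : ℤ[X]) := by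
  have hp : (Ideal.span {(2 : ℤ)}).IsPrime :=
    (Ideal.span_singleton_prime (by norm_num)).2 Int.prime_two
  have h : (X ^ 4 + 2 : ℤ[X]) = X ^ 4 + C 2 := rfl
  suffices hE : (X ^ 4 + 2 : ℤ[X]).IsEisensteinAt (Ideal.span {(2 : ℤ)}) from
    hE.irreducible hp monic_four.isPrimitive (by rw [natDegree_four]; norm_num)
  refine ⟨?_, ?_, ?_⟩
  · rw [monic_four.leadingCoeff, Ideal.mem_span_singleton]
    norm_num
  · intro n hn
    rw [natDegree_four] at hn
    rw [Ideal.mem_span_singleton, h, coeff_add, coeff_X_pow, if_neg (by omega), zero_add, coeff_C]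
    split_ifs
    · exact dvd_rfl
    · exact dvd_zero _
  · rw [Ideal.span_singleton_pow, Ideal.mem_span_singleton, h, coeff_add, coeff_X_pow,
      if_neg (by omega), zero_add, coeff_C_zero]
    norm_num

theorem irr_four : Irreducible ((X ^ 4 + 2 : ℤ[X]).map (Int.castRingHom ℚ)) :=
  (IsPrimitive.Int.irreducible_iff_irreducible_map_cast monic_four.isPrimitive).1 irr_four_int

theorem loc_four : Loc (X ^ 4 + 2) 2 := by
  intro p hp
  unfold rho
  have h2 := hp.two_le
  have h0 : 0 < p ^ 2 := by positivity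
  calc ((Finset.range (p ^ 2)).filter
        (fun a : ℕ => ((p ^ 2 : ℕ) : ℤ) ∣ (X ^ 4 + 2 : ℤ[X]).eval (a : ℤ))).card
      < (Finset.range (p ^ 2)).card := by
        refine Finset.card_lt_card (Finset.filter_ssubset.2 ⟨0, Finset.mem_range.2 h0, ?_⟩)
        intro hd
        have h3 : (X ^ 4 + 2 : ℤ[X]).eval ((0 : ℕ) : ℤ) = ((2 : ℕ) : ℤ) := by simp
        rw [h3, Int.natCast_dvd_natCast] at hd
        have h4 := Nat.le_of_dvd (by norm_num) hd
        nlinarith only [h2, h4]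
    _ = p ^ 2 := Finset.card_range _

/-- a positive density gives infinitely many values. -/
theorem infinite_of_asym (f : ℤ[X]) (k : ℕ) (h : Asym f k) :
    {n : ℕ | PowerFree k (f.eval (n : ℤ))}.Infinite := by
  classical
  intro hfin
  obtain ⟨-, hc, ho, -⟩ := h
  obtain ⟨N, hN⟩ : ∃ N : ℕ, ∀ X : ℕ, countPF f k X ≤ N := by
    refine ⟨hfin.toFinset.card, fun X => ?_⟩
    unfold countPF
    refine Finset.card_le_card fun n hn => ?_
    rw [Set.Finite.mem_toFinset]
    exact (Finset.mem_filter.1 hn).2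
  have h1 := ho.def (show 0 < density f k / 2 by positivity)
  have h2 : ∀ᶠ X : ℕ in atTop, 2 * (N : ℝ) / density f k < X :=
    tendsto_natCast_atTop_atTop.eventually_gt_atTop _
  obtain ⟨X, h3, h4⟩ := (h1.and h2).exists
  rw [Real.norm_eq_abs, Real.norm_eq_abs, abs_of_nonneg (by positivity : (0 : ℝ) ≤ X)] at h3
  have h5 : (countPF f k X : ℝ) ≤ N := by exact_mod_cast hN X
  rw [div_lt_iff₀ hc] at h4
  have h6 := (abs_le.1 h3).1
  nlinarith only [h4, h5, h6]

theorem squarefree_four (n : ℕ) (h : PowerFree 2 ((X ^ 4 + 2 : ℤ[X]).eval (n : ℤ))) :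
    Squarefree (n ^ 4 + 2) := by
  rw [Nat.squarefree_iff_prime_squarefree]
  intro p hp hd
  refine h p hp ?_
  have h3 : (X ^ 4 + 2 : ℤ[X]).eval (n : ℤ) = ((n ^ 4 + 2 : ℕ) : ℤ) := by simp
  rw [h3, sq]
  exact_mod_cast hd

end Vale.Agent.Q018
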