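import Vale.Agent.N018Y.Range
import Vale.Agent.Q018.Four

/-! # P018, Q018: the theorems on the range `Rng`. -/

namespace Vale.Agent.Q018

open Polynomial Filter Asymptotics Vale.Agent.P018 Vale.Agent.P018.H867 Vale.Agent.P018.H867R
  Vale.Agent.P018.R2.H803

theorem tailQ : TailR Rng := by
  intro f hirr k hk hr
  rcases hr with h | h | h | h
  · exact N018.tailW f hirr k hk (Or.inl h)
  · exact N018.tailW f hirr k hk (Or.inr (Or.inl h))
  · exact N018.tailW f hirr k hk (Or.inr (Or.inr (Or.inl h)))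
  · exact N018Y.tailV f hirr k hk (Or.inr h)

theorem asym_of_good (f : ℤ[X]) (k : ℕ) (hk : 2 ≤ k) (hf : GoodQ f k) (hloc : Loc f k) :
    Asym f k := by
  obtain ⟨h1, h2, h3⟩ := main_oneR tailQ f k hk hf hloc
  exact ⟨h1, h2, isLittleO_of_pow h3, h3⟩

theorem asym_of_irr (f : ℤ[X]) (k : ℕ) (hk : 2 ≤ k)
    (hirr : Irreducible (f.map (Int.castRingHom ℚ))) (hloc : Loc f k)
    (hr : Rng f.natDegree k) : Asym f k :=
  asym_of_good f k hk (goodR_of_irr f k hk hirr hr) hloc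

theorem asym_four : Asym (X ^ 4 + 2) 2 :=
  asym_of_irr _ 2 le_rfl irr_four loc_four (Or.inl (by rw [natDegree_four]))

theorem infinite_four : {n : ℕ | Squarefree (n ^ 4 + 2)}.Infinite :=
  (infinite_of_asym _ 2 asym_four).mono fun n hn => squarefree_four n hn

theorem family {m : ℕ} (hm : 0 < m) (f : Fin m → ℤ[X]) (k : Fin m → ℕ)
    (hk : ∀ i, 2 ≤ k i) (hf : ∀ i, GoodQ (f i) (k i))
    (hloc : ∀ p : ℕ, p.Prime → rhoS f k p < p ^ topExp k) :
    Multipliable (fun p : Nat.Primes => 1 - (rhoS f k p : ℝ) / ((p : ℕ) : ℝ) ^ topExp k) ∧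
    0 < densityS f k ∧
    ∃ δ C : ℝ, 0 < δ ∧ ∀ X : ℕ, 1 ≤ X →
      |(countS f k X : ℝ) - densityS f k * X| ≤ C * (X : ℝ) ^ (1 - δ) :=
  main_familyR tailQ hm f k hk hf hloc

end Vale.Agent.Q018
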